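import Vale.Agent.P284.H136.T.Step

/-!
# P284 (helper136), T3⁺, (I1): complete data
-/

open scoped Manifold ContDiff Topology InnerProductSpace ComplexConjugate
open Filter Set Metric

noncomputable section

set_option linter.unusedSectionVars false

namespace Vale.Agent.P284.H136.T

open Vale.Agent.P272.K Vale.Agent.P284.H894 Vale.Agent.P284.H894.G Vale.Agent.P284.H894.V
  Vale.Agent.P284.H894.W Vale.Agent.P284.H573 Vale.Agent.P284.H213.Grp Vale.Agent.P284.H395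
  Vale.Agent.P284.H619 Vale.Agent.P284.H625 Vale.Agent.P284.H378 Vale.Agent.P284.H478.G
  Vale.Agent.P284.H988.N Vale.Agent.P284.H494 Vale.Agent.P284.H494.N Vale.Agent.P284.H501.Core
  Vale.Agent.P284.H119.Kaz Vale.Agent.P284.H213.Q Vale.Agent.P284.H837.N Vale.Agent.P284.H650.T

section grp
variable {Γ : Type} [Group Γ] {G : Subgroup Γ} {N : ℕ} {A : Γ →* (Cm N ≃ₗ[ℂ] Cm N)} {c : Γ → Cm N}
  {K : Subgroup Γ}

/-- the centralizer of `K` in `G` is central -/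
theorem central_of (h : ADat Γ G N A c) (hKn : K.Normal)
    (hcc : ∀ g ∈ G, (∀ k ∈ K, g * k = k * g) → c g = 0 → g = 1) (g : Γ) (hgG : g ∈ G)
    (hg : ∀ k ∈ K, g * k = k * g) (x : Γ) (hxG : x ∈ G) : g * x = x * g := by
  have hGn := h.normal
  have h1 : c (g * x * g⁻¹ * x⁻¹) = 0 := by
    have hgx : g * x * g⁻¹ ∈ G := hGn.conj_mem x hxG g
    have h4 : c (x * x⁻¹) = c x⁻¹ + c x := h.add_of_mem hxG _
    rw [h.add_of_mem hgx, h.conj g hxG, h.one g hgG]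
    rw [mul_inv_cancel, h.map_one] at h4
    exact h4.symm
  have h2 : ∀ k ∈ K, (g * x * g⁻¹ * x⁻¹) * k = k * (g * x * g⁻¹ * x⁻¹) := by
    intro k hk
    have hk' : x⁻¹ * k * x ∈ K := by
      have := hKn.conj_mem k hk x⁻¹
      rwa [inv_inv] at this
    have e1 : g * k = k * g := hg k hk
    have e2 : g * (x⁻¹ * k * x) = (x⁻¹ * k * x) * g := hg _ hk'
    have e3 : g⁻¹ * (x⁻¹ * k * x) = (x⁻¹ * k * x) * g⁻¹ := by
      calc g⁻¹ * (x⁻¹ * k * x) = g⁻¹ * ((x⁻¹ * k * x) * g) * g⁻¹ := by group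
        _ = g⁻¹ * (g * (x⁻¹ * k * x)) * g⁻¹ := by rw [e2]
        _ = _ := by group
    calc (g * x * g⁻¹ * x⁻¹) * k = g * x * (g⁻¹ * (x⁻¹ * k * x)) * x⁻¹ := by group
      _ = g * x * ((x⁻¹ * k * x) * g⁻¹) * x⁻¹ := by rw [e3]
      _ = (g * k) * x * g⁻¹ * x⁻¹ := by group
      _ = (k * g) * x * g⁻¹ * x⁻¹ := by rw [e1]
      _ = _ := by group
  have hmem : g * x * g⁻¹ * x⁻¹ ∈ G :=
    Subgroup.mul_mem _ (Subgroup.mul_mem _ (Subgroup.mul_mem _ hgG hxG) (Subgroup.inv_mem _ hgG))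
      (Subgroup.inv_mem _ hxG)
  have h3 := hcc _ hmem h2 h1
  calc g * x = (g * x * g⁻¹ * x⁻¹) * (x * g) := by group
    _ = x * g := by rw [h3, one_mul]

/-- the centralizer of `K` in `G` -/
def zen (G K : Subgroup Γ) : Subgroup Γ := G ⊓ Subgroup.centralizer (K : Set Γ)

theorem mem_zen (g : Γ) : g ∈ zen G K ↔ g ∈ G ∧ ∀ k ∈ K, g * k = k * g := by
  unfold zen
  rw [Subgroup.mem_inf, Subgroup.mem_centralizer_iff]
  exact ⟨fun h => ⟨h.1, fun k hk => (h.2 k hk).symm⟩, fun h => ⟨h.1, fun k hk => (h.2 k hk).symm⟩⟩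

theorem zen_normal (hG : G.Normal) (hK : K.Normal) : (zen G K).Normal := by
  have h1 : (Subgroup.centralizer (K : Set Γ)).Normal := Subgroup.normal_centralizer
  unfold zen
  infer_instance

/-- it is finitely generated if it meets `ker c` trivially -/
theorem zen_fg (h : ADat Γ G N A c)
    (hcc : ∀ g ∈ G, (∀ k ∈ K, g * k = k * g) → c g = 0 → g = 1) : Group.FG (zen G K) := by
  have h1 := lat_noeth h
  have h2 : IsNoetherian ℤ (cen h K) := isNoetherian_of_le (cen_le h)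
  have h3 : Module.Finite ℤ (cen h K) := inferInstance
  have h4 : AddGroup.FG (cen h K) := Module.Finite.iff_addGroup_fg.1 h3
  have h5 : Group.FG (Multiplicative (cen h K)) := inferInstance
  let f : zen G K →* Multiplicative (cen h K) :=
    { toFun := fun g => Multiplicative.ofAdd ⟨c g, g, ((mem_zen _).1 g.2).1, ((mem_zen _).1 g.2).2, rfl⟩
      map_one' := by
        refine congrArg Multiplicative.ofAdd (Subtype.ext ?_)
        exact h.map_one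
      map_mul' := fun a b => by
        refine congrArg Multiplicative.ofAdd (Subtype.ext ?_)
        exact h.lat.add ⟨a, ((mem_zen _).1 a.2).1⟩ ⟨b, ((mem_zen _).1 b.2).1⟩ }
  have hf : Function.Bijective f := by
    refine ⟨(injective_iff_map_eq_one f).2 fun g hg => ?_, fun v => ?_⟩
    · have h6 : c g = 0 := congrArg (fun x => ((Multiplicative.toAdd x : cen h K) : Cm N)) hg
      exact Subtype.ext (hcc g ((mem_zen _).1 g.2).1 ((mem_zen _).1 g.2).2 h6)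
    · obtain ⟨g, hg, hgk, hv⟩ := (Multiplicative.toAdd v).2
      refine ⟨⟨g, (mem_zen _).2 ⟨hg, hgk⟩⟩, ?_⟩
      refine congrArg Multiplicative.ofAdd (Subtype.ext ?_)
      exact hv
  let e := MulEquiv.ofBijective f hf
  exact Group.fg_of_surjective (f := e.symm.toMonoidHom) e.symm.surjective

end grp

/-- the conclusion of `FullStmt` -/
def HasFull (n q : ℕ) (X : Type) [TopologicalSpace X] [T2Space X] [CompactSpace X] [ConnectedSpace X]
    [ChartedSpace (Cm n) X] [IsManifold 𝓘(ℂ, Cm n) ω X]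
    (w : Chart n X → Cm n → Matrix (Fin n) (Fin n) ℂ) : Prop :=
  ∃ (E₁ Γ₁ : Type) (_ : TopologicalSpace E₁) (_ : ConnectedSpace E₁) (_ : Group Γ₁)
    (_ : MulAction Γ₁ E₁) (p₁ : E₁ → X) (F₁ : E₁ → Cm q) (G₁ K₁ : Subgroup Γ₁)
    (A₁ : Γ₁ →* (Cm q ≃ₗ[ℂ] Cm q)) (c₁ : Γ₁ → Cm q)
    (W : Type) (_ : NormedAddCommGroup W) (_ : InnerProductSpace ℂ W) (_ : CompleteSpace W)
    (ρ : Γ₁ →* (W ≃ₗᵢ[ℂ] W)) (S : E₁ → Chart n X → Cm n [⋀^Fin (q + 1)]→L[ℂ] W)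
    (Θ : E₁ → Chart n X → (Cm n →L[ℂ] W)) (J : W →SL[starRingEnd ℂ] W) (T : E₁ → E₁ → W),
    Full w G₁ p₁ F₁ A₁ c₁ K₁ ρ S Θ J T

/-- **The induction on `c(C_G(K))`.** -/
theorem full_of_cent (hLim : LimNStmt) (hPb : PbStmt) (hDesc : DescStmt) (hCent : CentStmt)
    (hNK : NotKazStmt) {n q : ℕ} {X : Type} [TopologicalSpace X] [T2Space X] [CompactSpace X]
    [ConnectedSpace X] [ChartedSpace (Cm n) X] [IsManifold 𝓘(ℂ, Cm n) ω X]
    {w : Chart n X → Cm n → Matrix (Fin n) (Fin n) ℂ} (hq : 1 ≤ q) (Λ : Submodule ℤ (Cm q))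
    (hΛn : IsNoetherian ℤ Λ) (b : Submodule ℤ Λ) :
    ∀ (E Γ : Type) [TopologicalSpace E] [ConnectedSpace E] [Group Γ] [MulAction Γ E] (p : E → X)
      (F : E → Cm q) (G K : Subgroup Γ) (A : Γ →* (Cm q ≃ₗ[ℂ] Cm q)) (c : Γ → Cm q)
      (h : StdN w G p F A c K), ¬ Kazhdan K →
      (∀ K' : Subgroup Γ, K' ≤ K → (K'.subgroupOf K).FiniteIndex →
        ∀ g ∈ K, (∀ h ∈ K', g * h = h * g) → g = 1) →
      lat h.dat = Λ → (cen h.dat K).comap Λ.subtype = b → HasFull n q X w := by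
  have hwf : WellFoundedGT (Submodule ℤ Λ) := inferInstance
  induction b using hwf.induction with
  | _ b ihb =>
  intro E Γ _ _ _ _ p F G K A c h hk hcent hΛ hb
  have hKn : K.Normal := h.dat.ker_normal h.ker
  have hcc : ∀ g ∈ G, (∀ k ∈ K, g * k = k * g) → c g = 0 → g = 1 := fun g hg hgk hg0 =>
    hcent K le_rfl (by rw [Subgroup.subgroupOf_self]; infer_instance) g ((h.ker g).2 ⟨hg, hg0⟩) hgk
  obtain ⟨M, hMn, A₁, c₁, E₁, i4, i5, i6, p₁, F₁, W, i1, i2, i3, ρ₁, S₁, Θ₁, J, T₁, h₁, hJ₁, hc₁, hk₁,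
    hf₁, hcent₁, hZ⟩ := step hLim hPb hDesc hCent hNK h hq hk (zen G K) (zen_normal h.dat.normal hKn)
      (fun g hg => ((mem_zen g).1 hg).1) (zen_fg h.dat hcc)
      (fun z hz g hg => central_of h.dat hKn hcc z ((mem_zen z).1 hz).1 ((mem_zen z).1 hz).2 g hg)
  by_cases hce : cen h₁.dat (K.map (QuotientGroup.mk' M)) ≤ cen h.dat K
  · refine ⟨E₁, Γ ⧸ M, i4, i5, inferInstance, i6, p₁, F₁, _, _, A₁, c₁, W, i1, i2, i3, ρ₁, S₁, Θ₁, J,
      T₁, h₁, hk₁, hJ₁, hf₁, hcent₁, ?_⟩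
    rintro _ ⟨g, hg, rfl⟩ hgk
    obtain ⟨g', hg', hgk', he⟩ := cent_lift h.dat h₁.dat hc₁ (fun g hg hgk hg0 =>
      hcent₁ _ le_rfl (by rw [Subgroup.subgroupOf_self]; infer_instance) g
        ((h₁.ker g).2 ⟨hg, hg0⟩) hgk) hce g hg (fun k hk => hgk _ ⟨k, hk, rfl⟩)
    show ρ₁ (g : Γ ⧸ M) = 1
    rw [← he]
    exact hZ g' ((mem_zen g').2 ⟨hg', hgk'⟩)
  · refine ihb ((cen h₁.dat (K.map (QuotientGroup.mk' M))).comap Λ.subtype) ?_ E₁ (Γ ⧸ M) p₁ F₁ _ _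
      A₁ c₁ h₁ hk₁ hcent₁ ?_ rfl
    · rw [← hb]
      refine lt_of_le_not_ge (Submodule.comap_mono (cen_quo h.dat h₁.dat hc₁)) fun hle => ?_
      apply hce
      intro v hv
      have hvΛ : v ∈ Λ := by
        rw [← hΛ, ← lat_quo h.dat h₁.dat hc₁]
        exact cen_le h₁.dat hv
      exact hle (show (⟨v, hvΛ⟩ : Λ) ∈
        (cen h₁.dat (K.map (QuotientGroup.mk' M))).comap Λ.subtype from hv)
    · rw [lat_quo h.dat h₁.dat hc₁]
      exact hΛ

/-- **(I1)** -/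
theorem fullStmt (hLim : LimNStmt) (hPb : PbStmt) (hDesc : DescStmt) (hCent : CentStmt)
    (hNK : NotKazStmt) : FullStmt := by
  intro n q X _ _ _ _ _ _ w E Γ _ _ _ _ p F G K A c h hq hk
  obtain ⟨M, hMn, A₁, c₁, E₁, i4, i5, i6, p₁, F₁, W, i1, i2, i3, ρ₁, S₁, Θ₁, J, T₁, h₁, hJ₁, hc₁, hk₁,
    hf₁, hcent₁, -⟩ := step hLim hPb hDesc hCent hNK h hq hk ⊥ inferInstance bot_le inferInstance
      (fun z hz g hg => by
        rw [Subgroup.mem_bot] at hz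
        rw [hz, one_mul, mul_one])
  exact full_of_cent hLim hPb hDesc hCent hNK hq (lat h₁.dat) (lat_noeth h₁.dat) _ E₁ (Γ ⧸ M) p₁ F₁
    _ _ A₁ c₁ h₁ hk₁ hcent₁ rfl rfl

end Vale.Agent.P284.H136.T
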