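import Vale.Agent.P284.H494.N.Norm4
import Mathlib.Algebra.Module.ZLattice.Basic

/-!
# P284 (helper136), T3⁺, the induction: group theory

`PreT`: preliminary data, without `just` and without conditions on centralizers. `NPkgT`: the
normalised data `NPkgA` without `just`.
-/

open Function

noncomputable section

namespace Vale.Agent.P284.H136.T

open Vale.Agent.P272.K Vale.Agent.P284.H894.V Vale.Agent.P284.H213.Grp Vale.Agent.P284.H494.N
  Vale.Agent.P284.H988.N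

/-- The preliminary data. -/
structure PreT (Γ : Type) [Group Γ] (G : Subgroup Γ) (q : ℕ) (A : Γ →* (Cm q ≃ₗ[ℂ] Cm q))
    (c : Γ → Cm q) (K : Subgroup Γ) : Prop where
  dat : ADat Γ G q A c
  le : K ≤ G
  normal : K.Normal
  fg : Group.FG K
  sub : ∀ g ∈ K, c g = 0
  nvi : ¬ VirtIndicable K
  good : Good (K.subgroupOf G) (fun g : G => c g)

/-- The field `max` of `NPkgA`. -/
def MaxT (Γ : Type) [Group Γ] (G : Subgroup Γ) (q : ℕ) (c : Γ → Cm q) (K : Subgroup Γ) : Prop :=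
  ∀ W : Submodule ℂ (Cm q),
    (∀ v ∈ W, v ∈ Submodule.span ℝ ({v | ∃ g ∈ G, (∀ k ∈ K, g * k = k * g) ∧ c g = v} ∩
      (W : Set (Cm q)))) → W = ⊥

/-- The normalised data: all fields of `NPkgA` except `just`. -/
structure NPkgT (Γ : Type) [Group Γ] (G : Subgroup Γ) (q : ℕ) (A : Γ →* (Cm q ≃ₗ[ℂ] Cm q))
    (c : Γ → Cm q) (K : Subgroup Γ) : Prop where
  dat : ADat Γ G q A c
  le : K ≤ G
  normal : K.Normal
  fg : Group.FG K
  inf : Infinite K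
  sub : ∀ g ∈ K, c g = 0
  fi : ∃ F : Set Γ, F.Finite ∧ (∀ f ∈ F, f ∈ G) ∧ ∀ g ∈ G, c g = 0 → ∃ f ∈ F, f⁻¹ * g ∈ K
  nvi : ¬ VirtIndicable K
  cent : ∀ K' : Subgroup Γ, K' ≤ K → (K'.subgroupOf K).FiniteIndex →
    ∀ g ∈ G, c g = 0 → (∀ k ∈ K', g * k = k * g) → g = 1
  central : ∀ g ∈ G, (∀ k ∈ K, g * k = k * g) → ∀ h ∈ G, g * h = h * g
  max : MaxT Γ G q c K

section
variable {Γ : Type} [Group Γ] {G : Subgroup Γ} {N q : ℕ} {A : Γ →* (Cm N ≃ₗ[ℂ] Cm N)} {c : Γ → Cm N}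
  {K : Subgroup Γ}

/-- the data for the group `G` -/
theorem NPkgT.to0 (h : NPkgT Γ G N A c K) :
    NPkg0 G N (fun g : G => c g) (K.subgroupOf G) := by
  have hKn := h.normal
  let e : K.subgroupOf G ≃* K := Subgroup.subgroupOfEquivOfLe h.le
  refine ⟨h.dat.lat, inferInstance, ?_, ?_, fun g hg => h.sub g hg, ?_, ?_, ?_, ?_, ?_⟩
  · have := h.fg
    exact Group.fg_of_surjective (f := e.symm.toMonoidHom) e.symm.surjective
  · have := h.inf
    exact Infinite.of_injective e.symm e.symm.injective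
  · obtain ⟨F, hF, hFG, hc⟩ := h.fi
    refine ⟨{x | (x : Γ) ∈ F}, hF.preimage (Subtype.val_injective.injOn), fun g hg => ?_⟩
    obtain ⟨f, hf, hfg⟩ := hc g g.2 hg
    exact ⟨⟨f, hFG f hf⟩, hf, hfg⟩
  · exact fun hv => h.nvi (virtInd_congr e.symm hv)
  · intro K' hK' hfi g hg0 hgk
    refine Subtype.ext ?_
    refine h.cent (K'.map G.subtype) ?_ (fi_sub h.le hfi) g g.2 hg0 ?_
    · rintro _ ⟨x, hx, rfl⟩
      exact hK' hx
    · rintro _ ⟨x, hx, rfl⟩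
      exact congrArg Subtype.val (hgk x hx)
  · intro g hg x
    refine Subtype.ext ?_
    refine h.central g g.2 (fun k hk => ?_) x x.2
    exact congrArg Subtype.val (hg ⟨k, h.le hk⟩ hk)
  · intro W hW
    refine h.max W fun v hv => ?_
    refine Submodule.span_mono (Set.inter_subset_inter_left _ ?_) (hW v hv)
    rintro _ ⟨g, hg, rfl⟩
    exact ⟨g, g.2, fun k hk => congrArg Subtype.val (hg ⟨k, h.le hk⟩ hk), rfl⟩

/-- the data of the core -/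
theorem PreT.of_core (h : ADat Γ G N A c) (hK : ∀ g, g ∈ K ↔ g ∈ G ∧ c g = 0) (hfg : Group.FG K)
    (hnvi : ¬ VirtIndicable K) : PreT Γ G N A c K := by
  refine ⟨h, fun g hg => ((hK g).1 hg).1, h.ker_normal hK, hfg, fun g hg => ((hK g).1 hg).2, hnvi,
    {1}, Set.finite_singleton _, fun g hg => ⟨1, rfl, g, ?_, 1, fun k _ => by simp, ?_, by simp⟩⟩
  · rw [Subgroup.mem_subgroupOf]
    exact (hK g).2 ⟨g.2, hg⟩
  · exact h.lat.map_one

/-- **The quotient torus**: if `max` fails there are preliminary data of smaller dimension. -/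
theorem PreT.torus (h : PreT Γ G N A c K) (hmax : ¬ MaxT Γ G N c K) :
    ∃ (q : ℕ) (_ : q < N) (L : Cm N →ₗ[ℂ] Cm q) (A₂ : Γ →* (Cm q ≃ₗ[ℂ] Cm q)), Surjective L ∧
      (∀ g v, L (A g v) = A₂ g (L v)) ∧ PreT Γ G q A₂ (fun g => L (c g)) K := by
  classical
  have hGn := h.dat.normal
  have hKn := h.normal
  unfold MaxT at hmax
  push Not at hmax
  obtain ⟨W₀, hW₀, hW00⟩ := hmax
  -- the quotient by the sum of the translates of `W₀`
  let D : Subgroup G := Subgroup.centralizer (K.subgroupOf G : Set G)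
  have hD : ∀ g, g ∈ D ↔ ∀ k ∈ K.subgroupOf G, g * k = k * g := fun g => by
    rw [Subgroup.mem_centralizer_iff]
    exact ⟨fun h k hk => (h k hk).symm, fun h k hk => (h k hk).symm⟩
  have hset : {v | ∃ g ∈ G, (∀ k ∈ K, g * k = k * g) ∧ c g = v} =
      {v | ∃ g ∈ D, c (g : G) = v} := by
    ext v
    constructor
    · rintro ⟨g, hgG, hg, rfl⟩
      exact ⟨⟨g, hgG⟩, (hD _).2 fun k hk => Subtype.ext (hg k hk), rfl⟩
    · rintro ⟨g, hg, rfl⟩
      exact ⟨g, g.2, fun k hk => congrArg Subtype.val ((hD g).1 hg ⟨k, h.le hk⟩ hk), rfl⟩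
  rw [hset] at hW₀
  set W : Submodule ℂ (Cm N) := ⨆ g : Γ, W₀.map (A g).toLinearMap with hWdef
  have hWle : W₀ ≤ W := by
    refine le_trans (fun v hv => ?_) (le_iSup (fun g : Γ => W₀.map (A g).toLinearMap) 1)
    refine ⟨v, hv, ?_⟩
    rw [_root_.map_one]
    rfl
  have hW0 : W ≠ ⊥ := fun h0 => hW00 (le_bot_iff.1 (h0 ▸ hWle))
  have hWst : ∀ (g : Γ) v, v ∈ W → A g v ∈ W := by
    intro g v hv
    have h1 : W ≤ W.comap (A g).toLinearMap := by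
      conv_lhs => rw [hWdef]
      refine iSup_le fun x => ?_
      rintro _ ⟨u, hu, rfl⟩
      show A g (A x u) ∈ W
      refine (le_iSup (fun g : Γ => W₀.map (A g).toLinearMap) (g * x)) ⟨u, hu, ?_⟩
      rw [_root_.map_mul]
      rfl
    exact h1 hv
  -- conjugation
  let σ : Γ → G → G := fun x g => ⟨x * g * x⁻¹, hGn.conj_mem g g.2 x⟩
  have hσD : ∀ (x : Γ) (g : G), g ∈ D → σ x g ∈ D := by
    intro x g hg
    rw [hD] at hg ⊢
    intro k hk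
    have hk1 : x⁻¹ * (k : Γ) * x ∈ K := by
      have := hKn.conj_mem (k : Γ) hk x⁻¹
      rwa [inv_inv] at this
    have hk2 : x⁻¹ * (k : Γ) * x ∈ G := h.le hk1
    have h2 := congrArg Subtype.val (hg ⟨_, hk2⟩ hk1)
    have h3 : (g : Γ) * (x⁻¹ * (k : Γ) * x) = (x⁻¹ * (k : Γ) * x) * g := h2
    refine Subtype.ext ?_
    show x * (g : Γ) * x⁻¹ * k = k * (x * g * x⁻¹)
    calc x * (g : Γ) * x⁻¹ * k = x * ((g : Γ) * (x⁻¹ * (k : Γ) * x)) * x⁻¹ := by group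
      _ = x * ((x⁻¹ * (k : Γ) * x) * g) * x⁻¹ := by rw [h3]
      _ = _ := by group
  have hσc : ∀ (x : Γ) (g : G), c (σ x g) = A x (c g) := fun x g => h.dat.conj x g.2
  have hW : ∀ v ∈ W, v ∈ Submodule.span ℝ ({v | ∃ g ∈ D, c (g : G) = v} ∩ (W : Set (Cm N))) := by
    intro v hv
    rw [hWdef] at hv
    refine Submodule.iSup_induction (fun g : Γ => W₀.map (A g).toLinearMap)
      (motive := fun v => v ∈ Submodule.span ℝ ({v | ∃ g ∈ D, c (g : G) = v} ∩ (W : Set (Cm N))))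
      hv ?_ (Submodule.zero_mem _) fun _ _ => Submodule.add_mem _
    rintro x _ ⟨u, hu, rfl⟩
    have h2 := hW₀ u hu
    have h3 : (A x).toLinearMap.restrictScalars ℝ u ∈ Submodule.map
        ((A x).toLinearMap.restrictScalars ℝ)
        (Submodule.span ℝ ({v | ∃ g ∈ D, c (g : G) = v} ∩ (W₀ : Set (Cm N)))) := ⟨u, h2, rfl⟩
    rw [Submodule.map_span] at h3
    refine Submodule.span_mono ?_ h3
    rintro _ ⟨w, ⟨⟨g, hg, hgw⟩, hw⟩, rfl⟩
    refine ⟨⟨σ x g, hσD x g hg, ?_⟩, ?_⟩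
    · rw [hσc, hgw]
      rfl
    · exact hWst x w (hWle hw)
  set q₂ := Module.finrank ℂ (Cm N ⧸ W) with hq₂
  let b := Module.finBasis ℂ (Cm N ⧸ W)
  let L₂ : Cm N →ₗ[ℂ] Cm q₂ := b.equivFun.toLinearMap.comp W.mkQ
  have hL₂ : Surjective L₂ := b.equivFun.surjective.comp W.mkQ_surjective
  have hker : LinearMap.ker L₂ = W := by
    rw [LinearMap.ker_comp_of_ker_eq_bot _ (LinearEquiv.ker _), Submodule.ker_mkQ]
  have hlat₂ := h.dat.lat.quot D W hW L₂ hL₂ hker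
  have hlt : q₂ < N := by
    have h1 := Submodule.finrank_quotient_add_finrank W
    have h2 : 0 < Module.finrank ℂ W := by
      rw [Module.finrank_pos_iff]
      exact (Submodule.nontrivial_iff_ne_bot).2 hW0
    have h3 : Module.finrank ℂ (Cm N) = N := by simp
    omega
  obtain ⟨A₂, hA₂⟩ := exists_ind A L₂ hL₂ (fun g v hv => by
    rw [← LinearMap.mem_ker, hker] at hv ⊢
    exact hWst g v hv)
  refine ⟨q₂, hlt, L₂, A₂, hL₂, hA₂, ⟨hGn, h.dat.fi, fun g x => ?_, fun g hg => ?_, hlat₂⟩, h.le,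
    hKn, h.fg, fun g hg => ?_, h.nvi, ?_⟩
  · show L₂ (c (g * x)) = A₂ g (L₂ (c x)) + L₂ (c g)
    rw [h.dat.coc, map_add, hA₂]
  · refine LinearEquiv.ext fun v => ?_
    obtain ⟨v, rfl⟩ := hL₂ v
    rw [← hA₂, h.dat.one g hg]
    rfl
  · show L₂ (c g) = 0
    rw [h.sub g hg, _root_.map_zero]
  · obtain ⟨F, hF, hFc⟩ := h.good
    have hlat := h.dat.lat
    obtain ⟨F', hF', hFc'⟩ := hlat.near_fin D (W.restrictScalars ℝ) hW
    -- representatives of the elements of `F'`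
    let r : Cm N → G := fun v => if hv : ∃ g : G, c g = v then hv.choose else 1
    have hr : ∀ g : G, c (r (c g)) = c g := by
      intro g
      have hv : ∃ g' : G, c g' = c g := ⟨g, rfl⟩
      have : r (c g) = hv.choose := dif_pos hv
      rw [this]; exact hv.choose_spec
    refine ⟨(fun p : G × Cm N => r p.2 * p.1) '' (F ×ˢ F'), (hF.prod hF').image _,
      fun g hg => ?_⟩
    have hgW : c g ∈ W := by
      rw [← hker]; exact hg
    obtain ⟨d, hdD, hdW, hdF⟩ := hFc' g hgW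
    -- `g d⁻¹ = r v * x`, `x ∈ ker`
    set v := c ((g * d⁻¹ : G) : Γ) with hv
    have hx : c (((r v)⁻¹ * (g * d⁻¹) : G) : Γ) = 0 := by
      have h1 := hlat.add (r v)⁻¹ (g * d⁻¹)
      have h2 := hlat.map_inv (r v)
      have h3 := hr (g * d⁻¹)
      rw [h1, h2, h3, neg_add_cancel]
    obtain ⟨f, hf, k, hk, d', hd', hd'0, he⟩ := hFc _ hx
    refine ⟨r v * f, ⟨(f, v), ⟨hf, hdF⟩, rfl⟩, k, hk, d' * d, ?_, ?_, ?_⟩
    · intro k' hk'
      rw [mul_assoc, (hD d).1 hdD k' hk', ← mul_assoc, hd' k' hk', mul_assoc]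
    · show L₂ (c ((d' * d : G) : Γ)) = 0
      have h1 := hlat.add d' d
      have h2 : c d' = 0 := hd'0
      rw [h1, h2, zero_add, ← LinearMap.mem_ker, hker]
      exact hdW
    · calc g = r v * ((r v)⁻¹ * (g * d⁻¹)) * d := by group
        _ = r v * (f * k * d') * d := by rw [he]
        _ = _ := by group

/-- **The quotient of the preliminary data** by a normal subgroup of `ker c`. -/
theorem PreT.quo (h : PreT Γ G N A c K) (M : Subgroup Γ) [M.Normal] (hMG : M ≤ G)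
    (hM0 : ∀ g ∈ M, c g = 0) :
    ∃ (A₁ : Γ ⧸ M →* (Cm N ≃ₗ[ℂ] Cm N)) (c₁ : Γ ⧸ M → Cm N), (∀ g : Γ, c₁ (g : Γ ⧸ M) = c g) ∧
      (∀ (g : Γ) v, A g v = A₁ (g : Γ ⧸ M) v) ∧
      PreT (Γ ⧸ M) (G.map (QuotientGroup.mk' M)) N A₁ c₁ (K.map (QuotientGroup.mk' M)) := by
  classical
  obtain ⟨A₁, c₁, hc₁, hA₁, hdat⟩ := h.dat.quot M hMG LinearMap.id surjective_id
    (fun g v hv => by
      have hv' : v = 0 := hv
      rw [hv', _root_.map_zero, _root_.map_zero]) h.dat.lat (fun m hm => hM0 m hm)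
  have hc₁' : ∀ g : Γ, c₁ (g : Γ ⧸ M) = c g := hc₁
  have := h.fg
  let π := QuotientGroup.mk' M
  have hπ : Surjective π := QuotientGroup.mk'_surjective M
  let f : K →* K.map π := π.subgroupMap K
  have hf : Surjective f := π.subgroupMap_surjective K
  have hcomapG : (G.map π).comap π = G := by
    rw [Subgroup.comap_map_eq, QuotientGroup.ker_mk']
    exact sup_eq_left.2 hMG
  have hGπ : ∀ g, π g ∈ G.map π → g ∈ G := by
    intro g hg
    have h1 : g ∈ (G.map π).comap π := hg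
    rwa [hcomapG] at h1
  refine ⟨A₁, c₁, hc₁', hA₁, hdat, Subgroup.map_mono h.le, h.normal.map π hπ,
    Group.fg_of_surjective hf, ?_, fun hv => h.nvi (H731.VirtIndicable.of_surj f hf hv), ?_⟩
  · rintro _ ⟨g, hg, rfl⟩
    show c₁ (g : Γ ⧸ M) = 0
    rw [hc₁', h.sub g hg]
  · obtain ⟨F, hF, hFc⟩ := h.good
    let φ : G → G.map π := fun x => ⟨π x, x, x.2, rfl⟩
    refine ⟨φ '' F, hF.image _, ?_⟩
    rintro ⟨x, hx⟩ hg
    obtain ⟨x, rfl⟩ := hπ x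
    have hxG : x ∈ G := hGπ x hx
    have hg' : c x = 0 := by
      rw [← hc₁']; exact hg
    obtain ⟨f', hf', k, hk, d, hd, hd0, he⟩ := hFc ⟨x, hxG⟩ hg'
    refine ⟨φ f', ⟨f', hf', rfl⟩, φ k, ⟨(k : Γ), hk, rfl⟩, φ d, ?_, ?_, ?_⟩
    · rintro ⟨y, hk₁⟩ ⟨k', hk', hkk⟩
      refine Subtype.ext ?_
      have hkk' : π k' = y := hkk
      show π (d : Γ) * y = y * π (d : Γ)
      rw [← hkk']
      rw [← map_mul, ← map_mul]
      exact congrArg π (congrArg Subtype.val (hd ⟨k', h.le hk'⟩ hk'))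
    · show c₁ (((d : Γ) : Γ ⧸ M)) = 0
      rw [hc₁']; exact hd0
    · refine Subtype.ext ?_
      show π x = π f' * π k * π d
      rw [← map_mul, ← map_mul]
      exact congrArg π (congrArg Subtype.val he)

/-- from the preliminary data to the normalised data -/
theorem PreT.npkg (h : PreT Γ G N A c K) (hinf : Infinite K)
    (hcent : ∀ K' : Subgroup Γ, K' ≤ K → (K'.subgroupOf K).FiniteIndex →
      ∀ g ∈ G, c g = 0 → (∀ k ∈ K', g * k = k * g) → g = 1)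
    (hmax : MaxT Γ G N c K) : NPkgT Γ G N A c K := by
  have hKn := h.normal
  have hGn := h.dat.normal
  have hcc : ∀ g ∈ G, (∀ k ∈ K, g * k = k * g) → c g = 0 → g = 1 := fun g hg hgk hg0 =>
    hcent K le_rfl (by rw [Subgroup.subgroupOf_self]; infer_instance) g hg hg0 hgk
  refine ⟨h.dat, h.le, hKn, h.fg, hinf, h.sub, ?_, h.nvi, hcent, ?_, hmax⟩
  · obtain ⟨F, hF, hFc⟩ := h.good
    refine ⟨(fun x : G => (x : Γ)) '' F, hF.image _, ?_, fun g hgG hg => ?_⟩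
    · rintro _ ⟨x, -, rfl⟩
      exact x.2
    obtain ⟨f', hf', k, hk, d, hd, hd0, he⟩ := hFc ⟨g, hgG⟩ hg
    have h1 : (d : Γ) = 1 := hcc d d.2 (fun k hk => congrArg Subtype.val (hd ⟨k, h.le hk⟩ hk)) hd0
    have he' : g = (f' : Γ) * k * d := congrArg Subtype.val he
    refine ⟨f', ⟨f', hf', rfl⟩, ?_⟩
    have h2 : (f' : Γ)⁻¹ * g = k := by rw [he', h1]; group
    rw [h2]
    exact hk
  · intro g hgG hg x hxG
    have h1 : c (g * x * g⁻¹ * x⁻¹) = 0 := by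
      have hgx : g * x * g⁻¹ ∈ G := hGn.conj_mem x hxG g
      have h4 : c (x * x⁻¹) = c x⁻¹ + c x := h.dat.add_of_mem hxG _
      rw [h.dat.add_of_mem hgx, h.dat.conj g hxG, h.dat.one g hgG]
      rw [mul_inv_cancel, h.dat.map_one] at h4
      exact h4.symm
    have h2 : ∀ k ∈ K, (g * x * g⁻¹ * x⁻¹) * k = k * (g * x * g⁻¹ * x⁻¹) := by
      intro k hk
      have hk' : x⁻¹ * k * x ∈ K := by
        have := hKn.conj_mem k hk x⁻¹
        rwa [inv_inv] at this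
      have e1 : g * k = k * g := hg k hk
      have e2 : g * (x⁻¹ * k * x) = (x⁻¹ * k * x) * g := hg _ hk'
      have e3 : g⁻¹ * (x⁻¹ * k * x) = (x⁻¹ * k * x) * g⁻¹ := by
        calc g⁻¹ * (x⁻¹ * k * x) = g⁻¹ * ((x⁻¹ * k * x) * g) * g⁻¹ := by group
          _ = g⁻¹ * (g * (x⁻¹ * k * x)) * g⁻¹ := by rw [e2]
          _ = _ := by group
      calc (g * x * g⁻¹ * x⁻¹) * k = g * x * (g⁻¹ * (x⁻¹ * k * x)) * x⁻¹ := by group
        _ = g * x * ((x⁻¹ * k * x) * g⁻¹) * x⁻¹ := by rw [e3]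
        _ = (g * k) * x * g⁻¹ * x⁻¹ := by group
        _ = (k * g) * x * g⁻¹ * x⁻¹ := by rw [e1]
        _ = _ := by group
    have hmem : g * x * g⁻¹ * x⁻¹ ∈ G :=
      Subgroup.mul_mem _ (Subgroup.mul_mem _ (Subgroup.mul_mem _ hgG hxG) (Subgroup.inv_mem _ hgG))
        (Subgroup.inv_mem _ hxG)
    have h3 := hcc _ hmem h2 h1
    calc g * x = (g * x * g⁻¹ * x⁻¹) * (x * g) := by group
      _ = x * g := by rw [h3, one_mul]

/-! ### The chain of the groups `c (C_G(K))` -/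

/-- the lattice `c(G)` -/
def lat (h : ADat Γ G N A c) : Submodule ℤ (Cm N) := AddSubgroup.toIntSubmodule
  { carrier := {v | ∃ g ∈ G, c g = v}
    add_mem' := by
      rintro _ _ ⟨g, hg, rfl⟩ ⟨x, hx, rfl⟩
      exact ⟨g * x, mul_mem hg hx, h.lat.add ⟨g, hg⟩ ⟨x, hx⟩⟩
    zero_mem' := ⟨1, one_mem _, h.map_one⟩
    neg_mem' := by
      rintro _ ⟨g, hg, rfl⟩
      exact ⟨g⁻¹, inv_mem hg, h.lat.map_inv ⟨g, hg⟩⟩ }

theorem mem_lat (h : ADat Γ G N A c) (v : Cm N) : v ∈ lat h ↔ ∃ g ∈ G, c g = v := Iff.rfl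

/-- the subgroup `c(C_G(K))` -/
def cen (h : ADat Γ G N A c) (K : Subgroup Γ) : Submodule ℤ (Cm N) := AddSubgroup.toIntSubmodule
  { carrier := {v | ∃ g ∈ G, (∀ k ∈ K, g * k = k * g) ∧ c g = v}
    add_mem' := by
      rintro _ _ ⟨g, hg, hgk, rfl⟩ ⟨x, hx, hxk, rfl⟩
      refine ⟨g * x, mul_mem hg hx, fun k hk => ?_, h.lat.add ⟨g, hg⟩ ⟨x, hx⟩⟩
      rw [mul_assoc, hxk k hk, ← mul_assoc, hgk k hk, mul_assoc]
    zero_mem' := ⟨1, one_mem _, fun k _ => by simp, h.map_one⟩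
    neg_mem' := by
      rintro _ ⟨g, hg, hgk, rfl⟩
      refine ⟨g⁻¹, inv_mem hg, fun k hk => ?_, h.lat.map_inv ⟨g, hg⟩⟩
      rw [inv_mul_eq_iff_eq_mul, ← mul_assoc, hgk k hk, mul_inv_cancel_right] }

theorem mem_cen (h : ADat Γ G N A c) (v : Cm N) :
    v ∈ cen h K ↔ ∃ g ∈ G, (∀ k ∈ K, g * k = k * g) ∧ c g = v := Iff.rfl

theorem cen_le (h : ADat Γ G N A c) : cen h K ≤ lat h := by
  rintro v ⟨g, hg, -, hv⟩
  exact ⟨g, hg, hv⟩

theorem lat_noeth (h : ADat Γ G N A c) : IsNoetherian ℤ (lat h) := by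
  have : DiscreteTopology (lat h) := by
    refine discreteTopology_of_isOpen_singleton_zero ?_
    refine isOpen_singleton_of_finite_mem_nhds 0 (s := Metric.closedBall 0 1) ?_ ?_
    · exact Metric.closedBall_mem_nhds _ one_pos
    · refine Set.Finite.of_injOn (t := {v : Cm N | (∃ g : G, c g = v) ∧ ‖v‖ ≤ 1})
        (f := Subtype.val) ?_ Subtype.val_injective.injOn (h.lat.disc 1)
      intro x hx
      obtain ⟨g, hg, hgx⟩ := x.2
      exact ⟨⟨⟨g, hg⟩, hgx⟩, mem_closedBall_zero_iff.1 hx⟩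
  have : IsZLattice ℝ (lat h) := ⟨by
    have h1 : (lat h : Set (Cm N)) = Set.range (fun g : G => c g) := by
      ext v
      constructor
      · rintro ⟨g, hg, hv⟩
        exact ⟨⟨g, hg⟩, hv⟩
      · rintro ⟨g, hv⟩
        exact ⟨g, g.2, hv⟩
    rw [h1]
    exact h.lat.span⟩
  have : Module.Finite ℤ (lat h) := ZLattice.module_finite ℝ (lat h)
  exact isNoetherian_of_isNoetherianRing_of_finite ℤ (lat h)

/-- the lattice does not change in the quotient -/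
theorem lat_quo (h : ADat Γ G N A c) {M : Subgroup Γ} [M.Normal]
    {A₁ : Γ ⧸ M →* (Cm N ≃ₗ[ℂ] Cm N)} {c₁ : Γ ⧸ M → Cm N}
    (h₁ : ADat (Γ ⧸ M) (G.map (QuotientGroup.mk' M)) N A₁ c₁)
    (hc₁ : ∀ g : Γ, c₁ (g : Γ ⧸ M) = c g) : lat h₁ = lat h := by
  ext v
  rw [mem_lat, mem_lat]
  constructor
  · rintro ⟨_, ⟨g, hg, rfl⟩, hv⟩
    exact ⟨g, hg, (hc₁ g).symm.trans hv⟩
  · rintro ⟨g, hg, hv⟩
    exact ⟨_, ⟨g, hg, rfl⟩, (hc₁ g).trans hv⟩

/-- the groups `c(C_G(K))` grow in the quotient -/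
theorem cen_quo (h : ADat Γ G N A c) {M : Subgroup Γ} [M.Normal]
    {A₁ : Γ ⧸ M →* (Cm N ≃ₗ[ℂ] Cm N)} {c₁ : Γ ⧸ M → Cm N}
    (h₁ : ADat (Γ ⧸ M) (G.map (QuotientGroup.mk' M)) N A₁ c₁)
    (hc₁ : ∀ g : Γ, c₁ (g : Γ ⧸ M) = c g) :
    cen h K ≤ cen h₁ (K.map (QuotientGroup.mk' M)) := by
  rintro v ⟨g, hg, hgk, hv⟩
  refine ⟨_, ⟨g, hg, rfl⟩, ?_, (hc₁ g).trans hv⟩
  rintro _ ⟨k, hk, rfl⟩
  show QuotientGroup.mk' M g * QuotientGroup.mk' M k = QuotientGroup.mk' M k * QuotientGroup.mk' M g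
  rw [← map_mul, ← map_mul, hgk k hk]

/-- equal groups: the centralizer in the quotient comes from the centralizer -/
theorem cent_lift (h : ADat Γ G N A c) {M : Subgroup Γ} [M.Normal]
    {A₁ : Γ ⧸ M →* (Cm N ≃ₗ[ℂ] Cm N)} {c₁ : Γ ⧸ M → Cm N}
    (h₁ : ADat (Γ ⧸ M) (G.map (QuotientGroup.mk' M)) N A₁ c₁)
    (hc₁ : ∀ g : Γ, c₁ (g : Γ ⧸ M) = c g)
    (hcc : ∀ g ∈ G.map (QuotientGroup.mk' M), (∀ k ∈ K.map (QuotientGroup.mk' M), g * k = k * g) →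
      c₁ g = 0 → g = 1)
    (heq : cen h₁ (K.map (QuotientGroup.mk' M)) ≤ cen h K) (g : Γ) (hg : g ∈ G)
    (hgk : ∀ k ∈ K, (g : Γ ⧸ M) * (k : Γ ⧸ M) = (k : Γ ⧸ M) * (g : Γ ⧸ M)) :
    ∃ g' ∈ G, (∀ k ∈ K, g' * k = k * g') ∧ (g' : Γ ⧸ M) = (g : Γ ⧸ M) := by
  have h2 : c g ∈ cen h₁ (K.map (QuotientGroup.mk' M)) := by
    refine ⟨_, ⟨g, hg, rfl⟩, ?_, hc₁ g⟩
    rintro _ ⟨k, hk, rfl⟩
    exact hgk k hk
  obtain ⟨g', hg', hgk', hcg⟩ := heq h2
  refine ⟨g', hg', hgk', ?_⟩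
  have h3 : ((g'⁻¹ * g : Γ) : Γ ⧸ M) = 1 := by
    refine hcc _ ⟨g'⁻¹ * g, mul_mem (inv_mem hg') hg, rfl⟩ ?_ ?_
    · rintro _ ⟨k, hk, rfl⟩
      show ((g'⁻¹ * g : Γ) : Γ ⧸ M) * (k : Γ ⧸ M) = (k : Γ ⧸ M) * ((g'⁻¹ * g : Γ) : Γ ⧸ M)
      have e1 : ((g' : Γ) : Γ ⧸ M) * (k : Γ ⧸ M) = (k : Γ ⧸ M) * (g' : Γ ⧸ M) := by
        rw [← QuotientGroup.mk_mul, ← QuotientGroup.mk_mul, hgk' k hk]
      have e2 : ((g' : Γ ⧸ M))⁻¹ * (k : Γ ⧸ M) = (k : Γ ⧸ M) * ((g' : Γ ⧸ M))⁻¹ := by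
        rw [inv_mul_eq_iff_eq_mul, ← mul_assoc, e1, mul_inv_cancel_right]
      rw [QuotientGroup.mk_mul, QuotientGroup.mk_inv, mul_assoc, hgk k hk, ← mul_assoc, e2,
        mul_assoc]
    · rw [hc₁]
      have h4 := h.lat.add ⟨g'⁻¹, inv_mem hg'⟩ ⟨g, hg⟩
      have h5 := h.lat.map_inv ⟨g', hg'⟩
      have h6 : c (g'⁻¹ * g) = c g'⁻¹ + c g := h4
      have h7 : c g'⁻¹ = - c g' := h5
      rw [h6, h7, hcg, neg_add_cancel]
  rw [QuotientGroup.mk_mul, QuotientGroup.mk_inv] at h3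
  exact (inv_mul_eq_one.1 h3)

/-- the maximality passes to the quotient if the groups `c(C_G(K))` agree -/
theorem max_quo (h : ADat Γ G N A c) {M : Subgroup Γ} [M.Normal]
    {A₁ : Γ ⧸ M →* (Cm N ≃ₗ[ℂ] Cm N)} {c₁ : Γ ⧸ M → Cm N}
    (h₁ : ADat (Γ ⧸ M) (G.map (QuotientGroup.mk' M)) N A₁ c₁)
    (heq : cen h₁ (K.map (QuotientGroup.mk' M)) ≤ cen h K) (hmax : MaxT Γ G N c K) :
    MaxT (Γ ⧸ M) (G.map (QuotientGroup.mk' M)) N c₁ (K.map (QuotientGroup.mk' M)) := by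
  intro W hW
  refine hmax W fun v hv => ?_
  refine Submodule.span_mono (Set.inter_subset_inter_left _ ?_) (hW v hv)
  intro v hv
  exact heq hv

end

end Vale.Agent.P284.H136.T
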