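import Vale.Agent.P284.H136.T.Grp
import Vale.Agent.P284.H213.N.Asm

/-!
# P284 (helper136), T3⁺: the induction on the dimension of the torus

`StepN D` is the analysis: a normal subgroup `M` (the affine kernel of the limit data) with `K ⧸ M` not
Kazhdan, and a contradiction if the data modulo `M` are normalised and the centralizer of `K` in `G`
does not grow modulo `M`. `coreTGPN_of`: `StepN D` and `MFN D` give the strong core `CoreTGPN D`.
-/

open scoped Manifold ContDiff Topology Pointwise ComplexConjugate ComplexOrder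
open Filter Set Metric MeasureTheory

noncomputable section

namespace Vale.Agent.P284.H136.T

open Vale.Agent.P272.K Vale.Agent.P284.H248 Vale.Agent.P284.H894 Vale.Agent.P284.H894.G
  Vale.Agent.P284.H894.V Vale.Agent.P284.H894.W Vale.Agent.P284.H894.F Vale.Agent.P284.H998
  Vale.Agent.P284.H213.Grp Vale.Agent.P284.H213.Q Vale.Agent.P284.H119.Kaz
  Vale.Agent.P284.H213.T3 Vale.Agent.P284.H213.K Vale.Agent.P284.H213.G Vale.Agent.P284.H494.N
  Vale.Agent.P284.H213.N Vale.Agent.P284.H913.Tube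

/-- **The step.** For preliminary data with `max` and `K` not Kazhdan there is a normal subgroup `M` of
`Γ` (the affine kernel) with `K ⧸ M` not Kazhdan, which contains every `g ∈ G`, `c g = 0`, which commutes
with a subgroup of finite index of `K` modulo `M`; and the data modulo `M` cannot be normalised with the
centralizer of `K` modulo `M` coming from the centralizer of `K`. -/
def StepN (D : Cls) : Prop :=
  ∀ (n : ℕ) (X : Type) [TopologicalSpace X] [T2Space X] [CompactSpace X] [ConnectedSpace X]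
    [ChartedSpace (Cm n) X] [IsManifold 𝓘(ℂ, Cm n) ω X]
    (_ : D n X) (w : Chart n X → Cm n → Matrix (Fin n) (Fin n) ℂ), IsKahler w →
    ∀ (E Γ : Type) [TopologicalSpace E] [ConnectedSpace E] [Group Γ] [MulAction Γ E]
      (p : E → X), IsGalois Γ p →
    ∀ (q : ℕ) (F : E → Cm q) (G K : Subgroup Γ) (A : Γ →* (Cm q ≃ₗ[ℂ] Cm q)) (c : Γ → Cm q),
      (∃ B, HolB p w F B) → (∀ g y, F (g • y) = A g (F y) + c g) →
      (∃ y, Reg (n := n) p F y) → GenConn (n := n) p F →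
      PreT Γ G q A c K → MaxT Γ G q c K → FinRepIn Γ K → ¬ Kazhdan K →
      ∃ (M : Subgroup Γ) (_ : M.Normal), M ≤ G ∧ (∀ g ∈ M, c g = 0) ∧
        ¬ Kazhdan (K.map (QuotientGroup.mk' M)) ∧
        (∀ K' : Subgroup Γ, K' ≤ K → (K'.subgroupOf K).FiniteIndex → ∀ g ∈ G, c g = 0 →
          (∀ k ∈ K', g * k * g⁻¹ * k⁻¹ ∈ M) → g ∈ M) ∧
        ∀ (A₁ : Γ ⧸ M →* (Cm q ≃ₗ[ℂ] Cm q)) (c₁ : Γ ⧸ M → Cm q),
          (∀ g : Γ, c₁ (g : Γ ⧸ M) = c g) → (∀ (g : Γ) v, A g v = A₁ (g : Γ ⧸ M) v) →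
          NPkgT (Γ ⧸ M) (G.map (QuotientGroup.mk' M)) q A₁ c₁ (K.map (QuotientGroup.mk' M)) →
          (∀ g ∈ G, (∀ k ∈ K, (g : Γ ⧸ M) * (k : Γ ⧸ M) = (k : Γ ⧸ M) * (g : Γ ⧸ M)) →
            ∃ g' ∈ G, (∀ k ∈ K, g' * k = k * g') ∧ (g' : Γ ⧸ M) = (g : Γ ⧸ M)) → False

theorem finRepIn_quo' {Γ : Type} [Group Γ] {K : Subgroup Γ} (h : FinRepIn Γ K) (M : Subgroup Γ)
    [M.Normal] : FinRepIn (Γ ⧸ M) (K.map (QuotientGroup.mk' M)) := by
  intro V _ _ _ ρ
  refine (h V (ρ.comp (QuotientGroup.mk' M))).subset ?_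
  rintro _ ⟨_, ⟨k, hk, rfl⟩, rfl⟩
  exact ⟨k, hk, rfl⟩

/-- the condition on the centralizers, in the quotient -/
theorem cent_quo {Γ : Type} [Group Γ] {G K : Subgroup Γ} {N : ℕ} {c : Γ → Cm N} {M : Subgroup Γ}
    [M.Normal]
    (hcent : ∀ K' : Subgroup Γ, K' ≤ K → (K'.subgroupOf K).FiniteIndex → ∀ g ∈ G, c g = 0 →
      (∀ k ∈ K', g * k * g⁻¹ * k⁻¹ ∈ M) → g ∈ M)
    {c₁ : Γ ⧸ M → Cm N} (hc₁ : ∀ g : Γ, c₁ (g : Γ ⧸ M) = c g)
    (K' : Subgroup (Γ ⧸ M)) (hK' : (K'.subgroupOf (K.map (QuotientGroup.mk' M))).FiniteIndex)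
    (g : Γ ⧸ M) (hg : g ∈ G.map (QuotientGroup.mk' M)) (hg0 : c₁ g = 0)
    (hgk : ∀ k ∈ K', g * k = k * g) : g = 1 := by
  obtain ⟨g, hg', rfl⟩ := hg
  have h1 := fi_comap (QuotientGroup.mk' M) hK'
  have h2 := fi_inf h1 (Subgroup.le_comap_map (QuotientGroup.mk' M) K)
  refine (QuotientGroup.eq_one_iff g).2 (hcent _ inf_le_right h2 g hg' ?_ ?_)
  · rw [← hc₁]; exact hg0
  · intro k hk
    have h3 : (g : Γ ⧸ M) * (k : Γ ⧸ M) = (k : Γ ⧸ M) * (g : Γ ⧸ M) := hgk _ hk.1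
    rw [← QuotientGroup.eq_one_iff]
    show ((g : Γ ⧸ M) * (k : Γ ⧸ M)) * (g : Γ ⧸ M)⁻¹ * (k : Γ ⧸ M)⁻¹ = 1
    rw [h3]
    group

/-- **The induction.** -/
theorem no_data {D : Cls} (hM : MFN D) (hS : StepN D) (n : ℕ) (X : Type) [TopologicalSpace X]
    [T2Space X] [CompactSpace X] [ConnectedSpace X] [ChartedSpace (Cm n) X]
    [IsManifold 𝓘(ℂ, Cm n) ω X] (hDX : D n X) (w : Chart n X → Cm n → Matrix (Fin n) (Fin n) ℂ)
    (hw : IsKahler w) (q : ℕ) :
    ∀ (E Γ : Type) [TopologicalSpace E] [ConnectedSpace E] [Group Γ] [MulAction Γ E]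
      (p : E → X), IsGalois Γ p →
    ∀ (F : E → Cm q) (G K : Subgroup Γ) (A : Γ →* (Cm q ≃ₗ[ℂ] Cm q)) (c : Γ → Cm q),
      (∃ B, HolB p w F B) → (∀ g y, F (g • y) = A g (F y) + c g) →
      (∃ y, Reg (n := n) p F y) → GenConn (n := n) p F →
      PreT Γ G q A c K → FinRepIn Γ K → ¬ Kazhdan K → False := by
  induction q using Nat.strong_induction_on with
  | _ q ih =>
  -- the inner induction, on the group of the periods of the centralizer
  have inner : ∀ (Λ : Submodule ℤ (Cm q)) (_ : IsNoetherian ℤ Λ) (b : Submodule ℤ Λ)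
      (E Γ : Type) [TopologicalSpace E] [ConnectedSpace E] [Group Γ] [MulAction Γ E]
      (p : E → X), IsGalois Γ p →
      ∀ (F : E → Cm q) (G K : Subgroup Γ) (A : Γ →* (Cm q ≃ₗ[ℂ] Cm q)) (c : Γ → Cm q),
        (∃ B, HolB p w F B) → (∀ g y, F (g • y) = A g (F y) + c g) →
        (∃ y, Reg (n := n) p F y) → GenConn (n := n) p F →
        ∀ hP : PreT Γ G q A c K, lat hP.dat = Λ → (cen hP.dat K).comap Λ.subtype = b →
          FinRepIn Γ K → ¬ Kazhdan K → False := by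
    intro Λ hΛn b
    have hwf : WellFoundedGT (Submodule ℤ Λ) := inferInstance
    induction b using hwf.induction with
    | _ b ihb =>
    intro E Γ _ _ _ _ p hp F G K A c hB heq hreg hgc hP hΛ hb hfr hk
    have hB' := hB
    obtain ⟨B, hBB⟩ := hB'
    by_cases hmax : MaxT Γ G q c K
    · obtain ⟨M, hMn, hMG, hM0, hkM, hcent, hfin⟩ := hS n X hDX w hw E Γ p hp q F G K A c hB heq
        hreg hgc hP hmax hfr hk
      obtain ⟨A₁, c₁, hc₁, hA₁, hP₁⟩ := hP.quo M hMG hM0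
      obtain ⟨F₁, hB₁, heq₁, hreg₁⟩ := desc hp hP.dat hB heq hreg M LinearMap.id
        Function.surjective_id A₁ c₁ hc₁ (fun g v => hA₁ g v)
      have hp₁ := H885.isGalois_toX hp M
      have hcon₁ : ConnectedSpace (H885.Quo E M) := H885.connected_quo M
      have hgc₁ := hM n X hDX w hw _ _ _ hp₁ q F₁ _ A₁ c₁ hP₁.dat hB₁ heq₁ hreg₁
      have hcent₁ := cent_quo (c := c) hcent hc₁
      by_cases hce : cen hP₁.dat (K.map (QuotientGroup.mk' M)) ≤ cen hP.dat K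
      · refine hfin A₁ c₁ hc₁ hA₁ (hP₁.npkg ?_ (fun K' _ hK' g hg hg0 hgk =>
          hcent₁ K' hK' g hg hg0 hgk) (max_quo hP.dat hP₁.dat hce hmax)) ?_
        · by_contra hfin'
          rw [not_infinite_iff_finite] at hfin'
          exact hkM Kazhdan.of_finite
        · refine cent_lift hP.dat hP₁.dat hc₁ (fun g hg hgk hg0 => ?_) hce
          refine hcent₁ _ ?_ g hg hg0 hgk
          rw [Subgroup.subgroupOf_self]
          infer_instance
      · refine ihb ((cen hP₁.dat (K.map (QuotientGroup.mk' M))).comap Λ.subtype) ?_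
          (H885.Quo E M) (Γ ⧸ M) (H885.toX hp M) hp₁ F₁ _ _ A₁ c₁ hB₁ heq₁ hreg₁ hgc₁ hP₁ ?_ rfl
          (finRepIn_quo' hfr M) hkM
        · rw [← hb]
          refine lt_of_le_not_ge (Submodule.comap_mono (cen_quo hP.dat hP₁.dat hc₁)) fun hle => ?_
          apply hce
          intro v hv
          have hvΛ : v ∈ Λ := by
            rw [← hΛ, ← lat_quo hP.dat hP₁.dat hc₁]
            exact cen_le hP₁.dat hv
          exact hle (show (⟨v, hvΛ⟩ : Λ) ∈
            (cen hP₁.dat (K.map (QuotientGroup.mk' M))).comap Λ.subtype from hv)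
        · rw [lat_quo hP.dat hP₁.dat hc₁]
          exact hΛ
    · obtain ⟨q₂, hlt, L, A₂, hL, hA₂, hP₂⟩ := hP.torus hmax
      obtain ⟨y₀, hy₀⟩ := hreg
      have hB₂ : ∃ B, HolB p w (fun y => L (F y)) B := HolB.linear hBB L
      have hreg₂ : ∃ y, Reg (n := n) p (fun y => L (F y)) y :=
        ⟨y₀, Reg.linear hp.cov hBB L hL hy₀⟩
      have heq₂ : ∀ g y, L (F (g • y)) = A₂ g (L (F y)) + L (c g) := by
        intro g y
        rw [heq, map_add, hA₂]
      exact ih q₂ hlt E Γ p hp (fun y => L (F y)) G K A₂ (fun g => L (c g)) hB₂ heq₂ hreg₂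
        (hM n X hDX w hw E Γ p hp q₂ _ G A₂ _ hP₂.dat hB₂ heq₂ hreg₂) hP₂ hfr hk
  intro E Γ _ _ _ _ p hp F G K A c hB heq hreg hgc hP hfr hk
  exact inner (lat hP.dat) (lat_noeth hP.dat) _ E Γ p hp F G K A c hB heq hreg hgc hP rfl rfl hfr hk

/-- **The induction**: the strong core from the step. -/
theorem coreTGPN_of {D : Cls} (hM : MFN D) (hS : StepN D) : CoreTGPN D := by
  intro n X _ _ _ _ _ _ hDX w hw E Γ _ _ _ _ p hp q F G K A c hB heq hreg hgc hD hK hfg hnvi hfr hk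
  exact no_data hM hS n X hDX w hw q E Γ p hp F G K A c hB heq hreg hgc
    (PreT.of_core hD hK hfg hnvi) hfr hk

end Vale.Agent.P284.H136.T
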