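import Vale.Agent.P284.H650.T.Spec
import Vale.Agent.P284.H988.T.Conn
import Vale.Agent.P284.H212.Thin

/-!
# P284 (helper136), T3⁺, (T3): the regular values; nothing is separated by the critical fibres and by
thin sets
-/

open scoped Manifold ContDiff Topology InnerProductSpace ComplexConjugate
open Filter Set Metric

noncomputable section

set_option linter.unusedSectionVars false

namespace Vale.Agent.P284.H136.T

open Vale.Agent.P272.K Vale.Agent.P284.H894 Vale.Agent.P284.H894.G Vale.Agent.P284.H894.V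
  Vale.Agent.P284.H894.W Vale.Agent.P284.H573 Vale.Agent.P284.H213.Grp Vale.Agent.P284.H395
  Vale.Agent.P284.H619 Vale.Agent.P284.H625 Vale.Agent.P284.H378 Vale.Agent.P284.H478.G
  Vale.Agent.P284.H988.N Vale.Agent.P284.H494 Vale.Agent.P284.H10 Vale.Agent.P284.H988.T
  Vale.Agent.P284.H650.T Vale.Agent.P284.H212

/-- **From local to global.** -/
theorem loc_glob {E : Type} [TopologicalSpace E] {A : Set E}
    (hloc : ∀ y, ∀ O ∈ 𝓝 y, ∃ U : Set E, IsOpen U ∧ y ∈ U ∧ U ⊆ O ∧ IsPreconnected (U ∩ A) ∧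
      (U ∩ A).Nonempty) {O : Set E} (hO : IsOpen O) (hOc : IsPreconnected O) :
    IsPreconnected (O ∩ A) ∧ O ⊆ closure (O ∩ A) := by
  refine ⟨?_, fun y hy => ?_⟩
  · rw [isPreconnected_iff_subset_of_disjoint]
    intro u v hu hv huv hdis
    let O₁ : Set E := ⋃₀ {U | IsOpen U ∧ U ⊆ O ∧ U ∩ A ⊆ u}
    let O₂ : Set E := ⋃₀ {U | IsOpen U ∧ U ⊆ O ∧ U ∩ A ⊆ v}
    have h1 : IsOpen O₁ := isOpen_sUnion fun U hU => hU.1
    have h2 : IsOpen O₂ := isOpen_sUnion fun U hU => hU.1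
    have h3 : O ⊆ O₁ ∪ O₂ := by
      intro y hy
      obtain ⟨U, hU, hyU, hUO, hUc, -⟩ := hloc y O (hO.mem_nhds hy)
      have hsub : U ∩ A ⊆ O ∩ A := inter_subset_inter_left _ hUO
      rcases isPreconnected_iff_subset_of_disjoint.1 hUc u v hu hv (hsub.trans huv)
        (eq_empty_of_forall_notMem fun x hx => by
          have : x ∈ O ∩ A ∩ (u ∩ v) := ⟨hsub hx.1, hx.2⟩
          rw [hdis] at this
          exact this) with h | h
      · exact Or.inl ⟨U, ⟨hU, hUO, h⟩, hyU⟩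
      · exact Or.inr ⟨U, ⟨hU, hUO, h⟩, hyU⟩
    have h4 : O ∩ (O₁ ∩ O₂) = ∅ := by
      refine eq_empty_of_forall_notMem ?_
      rintro y ⟨-, ⟨U₁, ⟨hU₁, hU₁O, hU₁u⟩, hyU₁⟩, U₂, ⟨hU₂, -, hU₂v⟩, hyU₂⟩
      obtain ⟨U, -, -, hUU, -, x, hxU, hxA⟩ := hloc y (U₁ ∩ U₂)
        (inter_mem (hU₁.mem_nhds hyU₁) (hU₂.mem_nhds hyU₂))
      have h5 := hUU hxU
      have : x ∈ O ∩ A ∩ (u ∩ v) := ⟨⟨hU₁O h5.1, hxA⟩, hU₁u ⟨h5.1, hxA⟩, hU₂v ⟨h5.2, hxA⟩⟩
      rw [hdis] at this
      exact this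
    rcases isPreconnected_iff_subset_of_disjoint.1 hOc O₁ O₂ h1 h2 h3 h4 with h | h
    · left
      rintro y ⟨hyO, hyA⟩
      obtain ⟨U, ⟨-, -, hUu⟩, hyU⟩ := h hyO
      exact hUu ⟨hyU, hyA⟩
    · right
      rintro y ⟨hyO, hyA⟩
      obtain ⟨U, ⟨-, -, hUu⟩, hyU⟩ := h hyO
      exact hUu ⟨hyU, hyA⟩
  · rw [mem_closure_iff_nhds]
    intro V hV
    obtain ⟨U, -, -, hUV, -, x, hxU, hxA⟩ := hloc y (V ∩ O) (inter_mem hV (hO.mem_nhds hy))
    exact ⟨x, (hUV hxU).1, (hUV hxU).2, hxA⟩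

section
variable {n q : ℕ} {X : Type} [TopologicalSpace X] [ChartedSpace (Cm n) X]
  {E : Type} [TopologicalSpace E] {p : E → X}

/-- thin sets, locally -/
theorem thin_loc_conn (hp : IsCoveringMap p) {𝒢 : Set E} (h : Thin n p 𝒢) (y : E) {O : Set E}
    (hO : O ∈ 𝓝 y) : ∃ U : Set E, IsOpen U ∧ y ∈ U ∧ U ⊆ O ∧ IsPreconnected (U ∩ 𝒢) ∧
      (U ∩ 𝒢).Nonempty := by
  obtain ⟨e, ε, j, hε, hy, hsub, hc, ha, hf, hg⟩ := thin_loc hp h y hO
  have hpre : IsPreconnected (ε.target \ {z | j z = 0}) := by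
    rcases Nat.eq_zero_or_pos n with h0 | h0
    · subst h0
      exact Set.Subsingleton.isPreconnected fun a _ b _ => Subsingleton.elim a b
    · obtain ⟨k, rfl⟩ : ∃ k, n = k + 1 := ⟨n - 1, by omega⟩
      have h1 : Cov k {z ∈ ε.target | j z = 0} :=
        cov_zero (by simp) ε.open_target
          (fun z hz => (ha z hz).differentiableAt.differentiableWithinAt)
          fun z hz h3 => hf z hz (h3.mono fun z' h4 h5 => h5 h4)
      refine preconn_diff (k := k) (h1.mono ?_) (by simp) ε.open_target hc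
      rintro z ⟨h2, h3⟩
      exact ⟨h3, h2⟩
  have himg : IsPreconnected (ε.symm '' (ε.target \ {z | j z = 0})) :=
    hpre.image _ (ε.continuousOn_symm.mono sdiff_subset)
  refine ⟨ε.source, ε.open_source, hy, hsub, himg.subset_closure ?_ ?_, ?_⟩
  · rintro _ ⟨z, ⟨hz, hz0⟩, rfl⟩
    exact ⟨ε.map_target hz, hg z hz hz0⟩
  · rintro y' ⟨hy', -⟩
    rw [mem_closure_iff_frequently]
    have h1 : ∃ᶠ z in 𝓝 (ε y'), z ∈ ε.target \ {z | j z = 0} :=
      ((hf _ (ε.map_source hy')).and_eventually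
        (ε.open_target.mem_nhds (ε.map_source hy'))).mono fun z hz => ⟨hz.2, hz.1⟩
    have h2 : Tendsto ε.symm (𝓝 (ε y')) (𝓝 y') := IsCh.symm_tendsto hy'
    exact h2.frequently (h1.mono fun z hz => mem_image_of_mem _ hz)
  · obtain ⟨z, hz0, hz⟩ := ((hf _ (ε.map_source hy)).and_eventually
      (ε.open_target.mem_nhds (ε.map_source hy))).exists
    exact ⟨ε.symm z, ε.map_target hz, hg z hz hz0⟩

theorem rv_eq {F : E → Cm q} : RV n p F = (critV n p F)ᶜ := by
  ext t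
  constructor
  · rintro h ⟨y, hy, hyt⟩
    exact hy (h y hyt)
  · intro h y hy
    by_contra h2
    exact h ⟨y, h2, hy⟩

end

section
variable {n q : ℕ} {X : Type} [TopologicalSpace X] [ChartedSpace (Cm n) X]
  {E : Type} [TopologicalSpace E] {Γ : Type} [Group Γ] [MulAction Γ E] {p : E → X}
  {w : Chart n X → Cm n → Matrix (Fin n) (Fin n) ℂ} {F : E → Cm q} {c : Γ → Cm q}
  {K : Subgroup Γ}

/-- The Albanese data of `Std`. -/
theorem alb_std (h : Std w p F c K) : Alb p w (⊤ : Subgroup Γ) K F c where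
  fi := inferInstance
  hol := h.hol
  equiv g _ y := h.eqv g y
  mem g := ⟨fun hg => ⟨Subgroup.mem_top g, (h.ker g).1 hg⟩, fun hg => (h.ker g).2 hg.2⟩
  disc R := by
    refine (h.lat.disc R).subset ?_
    rintro v ⟨⟨g, -, rfl⟩, hv⟩
    exact ⟨⟨g, rfl⟩, hv⟩
  span := by
    rw [← h.lat.span]
    congr 1
    ext v
    constructor
    · rintro ⟨g, -, rfl⟩
      exact ⟨g, rfl⟩
    · rintro ⟨g, rfl⟩
      exact ⟨g, Subgroup.mem_top g, rfl⟩
  max := by
    intro G' hG' _ φ hφ g hg hcg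
    have hfg := h.fg
    have hfgK : Group.FG (G'.subgroupOf K) := by
      have : (G'.subgroupOf K).FiniteIndex := inferInstance
      exact Subgroup.fg_of_index_ne_zero _
    have hnv : ¬ VirtIndicable (G'.subgroupOf K) := fun hv =>
      h.nvi (Vale.Agent.P284.H913.V.VirtIndicable.of_subgroup _ hv)
    exact Vale.Agent.P284.H221.hom_zero hfgK hnv
      (fun k : G'.subgroupOf K => φ ((k : K) : Γ)) (fun k k' => by
        show φ (((k * k' : G'.subgroupOf K) : K) : Γ) = _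
        rw [Subgroup.coe_mul, Subgroup.coe_mul]
        exact hφ _ (Subgroup.mem_subgroupOf.1 k.2) _ (Subgroup.mem_subgroupOf.1 k'.2))
      ⟨⟨g, (h.ker g).2 hcg⟩, Subgroup.mem_subgroupOf.2 hg⟩

/-- `F` is surjective -/
theorem surj_std [CompactSpace X] (h : Std w p F c K) : Function.Surjective F := by
  obtain ⟨y₀, -⟩ := h.reg
  have : Nonempty E := ⟨y₀⟩
  have hA := alb_std h
  have hFc := alb_continuous h.gal.cov hA
  have h1 : IsClosed (range F) := by
    refine closed_of_balls fun r => ?_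
    obtain ⟨C, hC, hcov⟩ := exists_compact_K h.gal hA r
    have h2 : range F ∩ closedBall 0 r = F '' C ∩ closedBall 0 r := by
      ext v
      constructor
      · rintro ⟨⟨y, rfl⟩, hv⟩
        obtain ⟨k, hk, hky⟩ := hcov y (mem_closedBall_zero_iff.1 hv)
        exact ⟨⟨k • y, hky, K_smul hA hk y⟩, hv⟩
      · rintro ⟨⟨y, -, rfl⟩, hv⟩
        exact ⟨⟨y, rfl⟩, hv⟩
    rw [h2]
    exact (hC.image hFc).isClosed.inter isClosed_closedBall
  obtain ⟨T, hT, hT0, hc⟩ := h.conn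
  have h2 : Dense (range F) := by
    refine (interior_eq_empty_iff_dense_compl.1 hT0).mono fun t ht => ?_
    obtain ⟨y, hy⟩ := (hc t ht).1.nonempty
    exact ⟨y, hy⟩
  have h3 : range F = univ := by rw [← h1.closure_eq, h2.closure_eq]
  exact range_eq_univ.1 h3

variable [IsManifold 𝓘(ℂ, Cm n) ω X]

/-- the fibres over the regular values are connected -/
theorem conn_std [T2Space X] [CompactSpace X] [ConnectedSpace X] [ConnectedSpace E]
    (h : Std w p F c K) {t : Cm q} (ht : t ∈ RV n p F) : IsConnected (F ⁻¹' {t}) := by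
  have hA := alb_std h
  have hreg : ∀ y, F y = t → Reg (n := n) p F y := ht
  obtain ⟨B, hB⟩ := h.hol
  obtain ⟨h1, -, -⟩ := Vale.Agent.P284.H35.S4.s4bStmt n X w h.kah E Γ p h.gal ⊤ K q F c hA
    t hreg
  obtain ⟨y₀, hy₀⟩ := surj_std h t
  obtain ⟨T, hT, hT0, hTc⟩ := h.conn
  have hdT : Dense Tᶜ := interior_eq_empty_iff_dense_compl.1 hT0
  have key : ∀ y y', F y = t → F y' = t → Same F y y' := by
    intro y y' hy hy'
    obtain ⟨U, hU, U', hU', h2⟩ := h1 y y' hy hy'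
    have h3 : F '' U ∈ 𝓝 t := by
      rw [← hy]; exact Vale.Agent.P284.H35.S4.open_E h.gal.cov hB (hreg y hy) U hU
    have h4 : F '' U' ∈ 𝓝 t := by
      rw [← hy']; exact Vale.Agent.P284.H35.S4.open_E h.gal.cov hB (hreg y' hy') U' hU'
    obtain ⟨t', ⟨⟨x, hx, hxt⟩, ⟨x', hx', hxt'⟩⟩, ht'⟩ := (mem_closure_iff_nhds.1 (hdT t)) _
      (inter_mem h3 h4)
    refine (h2 x hx x' hx' (hxt.trans hxt'.symm)).1 ?_
    have h5 := (hTc t' ht').1.isPreconnected
    have h6 : F ⁻¹' {F x} = F ⁻¹' {t'} := by rw [hxt]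
    rw [Same, h6]
    exact h5.subset_connectedComponentIn (x := x) (by simp [hxt]) subset_rfl (by simp [hxt'])
  refine ⟨⟨y₀, hy₀⟩, ?_⟩
  have h7 : F ⁻¹' {t} = connectedComponentIn (F ⁻¹' {t}) y₀ := by
    refine subset_antisymm (fun y hy => ?_) (connectedComponentIn_subset _ _)
    have := key y₀ y hy₀ hy
    rwa [Same, hy₀] at this
  rw [h7]
  exact isPreconnected_connectedComponentIn

end

/-- **(T3)** -/
theorem sepStmt : SepStmt := by
  intro n q X _ _ _ _ _ _ w E Γ _ _ _ _ p F c K h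
  obtain ⟨B, hB⟩ := h.hol
  obtain ⟨y₀, hy₀⟩ := h.reg
  have : Nonempty E := ⟨y₀⟩
  have hA := alb_std h
  have htr : ∀ g, ∀ t ∈ RV n p F, t + c g ∈ RV n p F := by
    intro g t ht y hy
    have hPer : H494.Per p w F c := ⟨h.hol, h.eqv, h.lat.disc⟩
    have h1 : F (g⁻¹ • y) = t := by
      rw [h.eqv, hy, h.lat.map_inv, add_neg_cancel_right]
    exact (hPer.reg_smul_iff h.gal g⁻¹ y).1 (ht _ h1)
  rcases Nat.eq_zero_or_pos q with hq | hq
  · subst hq
    have hRV : RV n p F = univ := by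
      refine eq_univ_of_forall fun t y _ e f he hf v => ⟨0, Subsingleton.elim _ _⟩
    rw [hRV]
    refine ⟨isOpen_univ, dense_univ, Set.Subsingleton.isPreconnected fun a _ b _ =>
      Subsingleton.elim a b, fun t _ => ?_, fun _ _ _ => mem_univ _, fun 𝒢 h𝒢 O hO hOc => ?_⟩
    · have h1 : F ⁻¹' {t} = univ := eq_univ_of_forall fun y => Subsingleton.elim _ _
      rw [h1]
      exact isConnected_univ
    · rw [preimage_univ, inter_univ]
      exact loc_glob (fun y O hO => thin_loc_conn h.gal.cov h𝒢 y hO) hO hOc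
  · have hcl : IsClosed (critV n p F) := closed_crit h.gal hA
    have hcv : Cov (q - 1) (critV n p F) := cov_crit hq h.gal hA
    have hfr : q - 1 + 1 ≤ Module.finrank ℂ (Cm q) := by simp; omega
    have hRV : RV n p F = (critV n p F)ᶜ := rv_eq
    refine ⟨?_, ?_, ?_, fun t ht => conn_std h ht, htr, fun 𝒢 h𝒢 O hO hOc => ?_⟩
    · rw [hRV]; exact hcl.isOpen_compl
    · rw [hRV, dense_iff_inter_open]
      intro O hO hne
      exact nonempty_diff (hcv.mono inter_subset_left) hfr hO hne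
    · rw [hRV, compl_eq_univ_sdiff]
      exact preconn_diff (hcv.mono inter_subset_left) hfr isOpen_univ convex_univ
    · have h1 : O ∩ 𝒢 ∩ F ⁻¹' RV n p F = O ∩ (𝒢 ∩ F ⁻¹' (critV n p F)ᶜ) := by
        rw [hRV, inter_assoc]
      rw [h1]
      exact loc_glob (fun y O hO => loc_conn hq h.gal.cov hB ⟨y₀, hy₀⟩ hcv h𝒢 y hO) hO hOc

end Vale.Agent.P284.H136.T
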