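import Vale.Agent.P284.H650.T.Spec
import Vale.Agent.P284.H136.T.Grp
import Vale.Agent.P284.H551.N6.Equi
import Vale.Agent.P284.H885.Cov

/-!
# P284 (helper136), T3⁺, (I1): one quotient step

The affine kernel of the limit data is a normal subgroup of `Γ`; the quotient data are faithful, the
quotient of `K` does not have property (T), and centralizers of subgroups of finite index are trivial.
-/

open scoped Manifold ContDiff Topology InnerProductSpace ComplexConjugate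
open Filter Set Metric

noncomputable section

set_option linter.unusedSectionVars false

namespace Vale.Agent.P284.H136.T

open Vale.Agent.P272.K Vale.Agent.P284.H894 Vale.Agent.P284.H894.G Vale.Agent.P284.H894.V
  Vale.Agent.P284.H894.W Vale.Agent.P284.H573 Vale.Agent.P284.H213.Grp Vale.Agent.P284.H395
  Vale.Agent.P284.H619 Vale.Agent.P284.H625 Vale.Agent.P284.H378 Vale.Agent.P284.H478.G
  Vale.Agent.P284.H988.N Vale.Agent.P284.H494 Vale.Agent.P284.H494.N Vale.Agent.P284.H501.Core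
  Vale.Agent.P284.H119.Kaz Vale.Agent.P284.H213.Q Vale.Agent.P284.H837.N Vale.Agent.P284.H650.T

section
variable {n q : ℕ} {X : Type} [TopologicalSpace X] [T2Space X] [CompactSpace X] [ConnectedSpace X]
  [ChartedSpace (Cm n) X] [IsManifold 𝓘(ℂ, Cm n) ω X]
  {w : Chart n X → Cm n → Matrix (Fin n) (Fin n) ℂ}
  {E Γ : Type} [TopologicalSpace E] [ConnectedSpace E] [Group Γ] [MulAction Γ E]
  {p : E → X} {F : E → Cm q} {G K : Subgroup Γ} {A : Γ →* (Cm q ≃ₗ[ℂ] Cm q)} {c : Γ → Cm q}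
  {W : Type} [NormedAddCommGroup W] [InnerProductSpace ℂ W]
  {ρ : Γ →* (W ≃ₗᵢ[ℂ] W)} {S : E → Chart n X → Cm n [⋀^Fin (q + 1)]→L[ℂ] W}
  {Θ : E → Chart n X → (Cm n →L[ℂ] W)} {J : W →SL[starRingEnd ℂ] W} {T : E → E → W}

/-- the regular values are preserved by `Γ` -/
theorem rv_aff (h : StdN w G p F A c K) (g : Γ) {y : E} (hy : F y ∈ RV n p F) :
    F (g • y) ∈ RV n p F := by
  obtain ⟨B, hB⟩ := h.hol
  have hpg : ∀ (g : Γ) y, p (g • y) = p y := fun g y => ((h.gal.orb y (g • y)).2 ⟨g, rfl⟩).symm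
  intro y' hy'
  have h1 : F (g⁻¹ • y') = F y := by
    have h2 := h.eqv g⁻¹ (g • y)
    rw [inv_smul_smul] at h2
    rw [h.eqv, hy', ← h2]
  have h3 : Reg (n := n) p F (g⁻¹ • y') := hy _ h1
  have h4 := H551.N6.reg_aff (n := n) h.gal.cov hpg h.gal.cont hB (A := fun g => A g) (a := c)
    h.eqv g h3
  rwa [smul_inv_smul] at h4

omit [T2Space X] [CompactSpace X] [ConnectedSpace X] [IsManifold 𝓘(ℂ, Cm n) ω X] [ConnectedSpace E] in
/-- elements of `K` preserve the fibres -/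
theorem f_ker (h : StdN w G p F A c K) {g : Γ} (hg : g ∈ K) (y : E) : F (g • y) = F y := by
  have h1 := (h.ker g).1 hg
  rw [h.eqv, h.dat.one g h1.1, h1.2, add_zero]
  rfl

omit [T2Space X] [CompactSpace X] [ConnectedSpace X] [IsManifold 𝓘(ℂ, Cm n) ω X] [ConnectedSpace E]
  [Group Γ] [MulAction Γ E] in
theorem two_self (hT : TwoPot p F Θ J T) {y : E} (hy : F y ∈ RV n p F) : T y y = 0 := by
  have h1 := hT.add y y y rfl rfl hy
  exact (add_eq_left.1 h1)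

/-- **The affine kernel.** -/
def affK (h : StdN w G p F A c K) (hJ : JDatN G p F c ρ S Θ J T) : Subgroup Γ where
  carrier := {g | g ∈ K ∧ AffTriv n p F ρ T g}
  mul_mem' := by
    rintro a b ⟨ha, ha1, ha2⟩ ⟨hb, hb1, hb2⟩
    refine ⟨mul_mem ha hb, by rw [map_mul, ha1, hb1, one_mul], fun y hy => ?_⟩
    have hby := f_ker h hb y
    have h1 := hJ.two.add y (b • y) (a • b • y) hby.symm (f_ker h ha _).symm hy
    rw [mul_smul, ← h1, hb2 y hy, ha2 (b • y) (by rw [hby]; exact hy), add_zero]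
  one_mem' := ⟨one_mem _, map_one _, fun y hy => by rw [one_smul]; exact two_self hJ.two hy⟩
  inv_mem' := by
    rintro a ⟨ha, ha1, ha2⟩
    refine ⟨inv_mem ha, by rw [map_inv, ha1, inv_one], fun y hy => ?_⟩
    have hay := f_ker h (inv_mem ha) y
    have h1 := hJ.two.add y (a⁻¹ • y) y hay.symm hay hy
    have h2 := ha2 (a⁻¹ • y) (by rw [hay]; exact hy)
    rw [smul_inv_smul] at h2
    rw [h2, add_zero, two_self hJ.two hy] at h1
    exact h1

theorem mem_affK (h : StdN w G p F A c K) (hJ : JDatN G p F c ρ S Θ J T) (g : Γ) :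
    g ∈ affK h hJ ↔ g ∈ K ∧ AffTriv n p F ρ T g := Iff.rfl

theorem affK_normal (h : StdN w G p F A c K) (hJ : JDatN G p F c ρ S Θ J T) :
    (affK h hJ).Normal := by
  have hKn : K.Normal := h.dat.ker_normal h.ker
  refine ⟨?_⟩
  rintro m ⟨hm, hm1, hm2⟩ g
  refine ⟨hKn.conj_mem m hm g, ?_, fun y hy => ?_⟩
  · rw [map_mul, map_mul, hm1, mul_one, map_inv, mul_inv_cancel]
  · have h1 : F (g⁻¹ • y) ∈ RV n p F := rv_aff h g⁻¹ hy
    have h2 := hJ.equiT g (g⁻¹ • y) (m • g⁻¹ • y) (f_ker h hm _).symm h1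
    rw [smul_inv_smul, hm2 _ h1, map_zero, ← mul_smul, ← mul_smul] at h2
    exact h2

/-- elements of `G` acting trivially, on the covering of `Y = E / G` -/
theorem aff_iff {Y : Type} [TopologicalSpace Y] [ChartedSpace (Cm n) Y] {pY : E → Y}
    (hRV : RV n pY F = RV n p F) (g : G) :
    AffTriv n pY F (ρ.comp G.subtype) T g ↔ AffTriv n p F ρ T (g : Γ) := by
  unfold AffTriv
  rw [hRV]
  rfl

/-- **Centralizers** of subgroups of finite index of `K` act trivially. -/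
theorem cent_aff (hPb : PbStmt) (hCent : CentStmt) [CompleteSpace W] (h : StdN w G p F A c K)
    (hJ : JDatN G p F c ρ S Θ J T) (K' : Subgroup Γ) (hK' : K' ≤ K)
    (hfi : (K'.subgroupOf K).FiniteIndex) (g : Γ) (hg : g ∈ K) (hgk : ∀ k ∈ K', g * k = k * g) :
    AffTriv n p F ρ T g := by
  obtain ⟨Y, _, _, _, _, _, _, pY, π, hπ, hπc, hpY, hπp⟩ := H885.exists_quo n X E Γ p h.gal G h.dat.fi
  obtain ⟨hStd, hRV, hall⟩ := hPb n q X w E Γ p F G K A c h Y pY π hπ hπc hpY hπp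
  obtain ⟨hD, hT, hE⟩ := hall W ρ S Θ J T hJ
  have hKG : K ≤ G := fun g hg => ((h.ker g).1 hg).1
  have h1 : ((K'.subgroupOf G).subgroupOf (K.subgroupOf G)).FiniteIndex := by
    refine fi_sub' (K := K) ?_
    rwa [Subgroup.subgroupOf_map_subtype, inf_eq_left.2 (hK'.trans hKG)]
  have h2 := hCent n q Y (H885.pull π w) E G pY F (fun g : G => c g) (K.subgroupOf G) hStd W
    (ρ.comp G.subtype) _ _ J T hD hT hE (K'.subgroupOf G) (fun x hx => hK' hx) h1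
    ⟨g, hKG hg⟩ ((h.ker g).1 hg).2 (fun k hk => Subtype.ext (hgk k hk))
  exact (aff_iff hRV ⟨g, hKG hg⟩).1 h2

/-- **Property (T)** fails for the quotient of `K` by elements acting trivially. -/
theorem nkaz_aff (hPb : PbStmt) (hNK : NotKazStmt) [CompleteSpace W] (h : StdN w G p F A c K)
    (hJ : JDatN G p F c ρ S Θ J T) (M : Subgroup Γ) [M.Normal]
    (hM : ∀ g ∈ M, AffTriv n p F ρ T g) : ¬ Kazhdan (K.map (QuotientGroup.mk' M)) := by
  obtain ⟨Y, _, _, _, _, _, _, pY, π, hπ, hπc, hpY, hπp⟩ := H885.exists_quo n X E Γ p h.gal G h.dat.fi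
  obtain ⟨hStd, hRV, hall⟩ := hPb n q X w E Γ p F G K A c h Y pY π hπ hπc hpY hπp
  obtain ⟨hD, hT, hE⟩ := hall W ρ S Θ J T hJ
  have hKG : K ≤ G := fun g hg => ((h.ker g).1 hg).1
  let φ : K.subgroupOf G →* K.map (QuotientGroup.mk' M) :=
    ((QuotientGroup.mk' M).subgroupMap K).comp (Subgroup.subgroupOfEquivOfLe hKG).toMonoidHom
  have hφ : Function.Surjective φ :=
    ((QuotientGroup.mk' M).subgroupMap_surjective K).comp (Subgroup.subgroupOfEquivOfLe hKG).surjective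
  refine hNK n q Y (H885.pull π w) E G pY F (fun g : G => c g) (K.subgroupOf G) hStd W
    (ρ.comp G.subtype) _ _ J T hD hT hE _ φ hφ fun g hg => ?_
  have h1 : (((g : G) : Γ) : Γ ⧸ M) = 1 := congrArg Subtype.val hg
  exact (aff_iff hRV (g : G)).2 (hM _ ((QuotientGroup.eq_one_iff _).1 h1))

/-- **One step.** -/
theorem step (hLim : LimNStmt) (hPb : PbStmt) (hDesc : DescStmt) (hCent : CentStmt)
    (hNK : NotKazStmt) (h : StdN w G p F A c K) (hq : 1 ≤ q) (hk : ¬ Kazhdan K)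
    (Z : Subgroup Γ) (hZn : Z.Normal) (hZG : Z ≤ G) (hZf : Group.FG Z)
    (hZc : ∀ z ∈ Z, ∀ g ∈ G, z * g = g * z) :
    ∃ (M : Subgroup Γ) (_ : M.Normal) (A₁ : Γ ⧸ M →* (Cm q ≃ₗ[ℂ] Cm q)) (c₁ : Γ ⧸ M → Cm q)
      (E₁ : Type) (_ : TopologicalSpace E₁) (_ : ConnectedSpace E₁) (_ : MulAction (Γ ⧸ M) E₁)
      (p₁ : E₁ → X) (F₁ : E₁ → Cm q)
      (W : Type) (_ : NormedAddCommGroup W) (_ : InnerProductSpace ℂ W) (_ : CompleteSpace W)
      (ρ₁ : Γ ⧸ M →* (W ≃ₗᵢ[ℂ] W))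
      (S₁ : E₁ → Chart n X → Cm n [⋀^Fin (q + 1)]→L[ℂ] W) (Θ₁ : E₁ → Chart n X → (Cm n →L[ℂ] W))
      (J : W →SL[starRingEnd ℂ] W) (T₁ : E₁ → E₁ → W),
      StdN w (G.map (QuotientGroup.mk' M)) p₁ F₁ A₁ c₁ (K.map (QuotientGroup.mk' M)) ∧
      JDatN (G.map (QuotientGroup.mk' M)) p₁ F₁ c₁ ρ₁ S₁ Θ₁ J T₁ ∧
      (∀ g : Γ, c₁ (g : Γ ⧸ M) = c g) ∧ ¬ Kazhdan (K.map (QuotientGroup.mk' M)) ∧
      (∀ g ∈ K.map (QuotientGroup.mk' M), AffTriv n p₁ F₁ ρ₁ T₁ g → g = 1) ∧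
      (∀ K' : Subgroup (Γ ⧸ M), K' ≤ K.map (QuotientGroup.mk' M) →
        (K'.subgroupOf (K.map (QuotientGroup.mk' M))).FiniteIndex →
        ∀ g ∈ K.map (QuotientGroup.mk' M), (∀ h ∈ K', g * h = h * g) → g = 1) ∧
      ∀ z ∈ Z, ρ₁ (z : Γ ⧸ M) = 1 := by
  obtain ⟨W, i1, i2, i3, ρ, S, Θ, J, T, hJ, hZ⟩ := hLim n q X w E Γ p F G K A c h hq hk Z hZn hZG hZf hZc
  have hMn : (affK h hJ).Normal := affK_normal h hJ
  have hMa : ∀ g ∈ affK h hJ, AffTriv n p F ρ T g := fun g hg => ((mem_affK h hJ g).1 hg).2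
  obtain ⟨A₁, c₁, E₁, i4, i5, i6, p₁, F₁, ρ₁, S₁, Θ₁, T₁, hStd, hJ₁, hc₁, hρ₁, hiff⟩ :=
    hDesc n q X w E Γ p F G K A c h W ρ S Θ J T hJ (affK h hJ)
      (fun g hg => ((mem_affK h hJ g).1 hg).1) hMa
  have hf : ∀ g ∈ K.map (QuotientGroup.mk' (affK h hJ)), AffTriv n p₁ F₁ ρ₁ T₁ g → g = 1 := by
    rintro _ ⟨k, hk, rfl⟩ hg
    exact (QuotientGroup.eq_one_iff k).2
      ⟨hk, (hiff k (by first | exact hk | exact ((h.ker k).1 hk).2)).1 hg⟩
  refine ⟨affK h hJ, hMn, A₁, c₁, E₁, i4, i5, i6, p₁, F₁, W, i1, i2, i3, ρ₁, S₁, Θ₁, J, T₁, hStd, hJ₁, hc₁,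
    nkaz_aff hPb hNK h hJ _ hMa, hf, fun K' hK' hfi g hg hgk => hf g hg
      (cent_aff hPb hCent hStd hJ₁ K' hK' hfi g hg hgk), fun z hz => ?_⟩
  rw [hρ₁]
  exact hZ z hz

end

end Vale.Agent.P284.H136.T
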